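import Vale.Agent.P232.Cert

/-!
# P232: certificate trees for the slab part of the middle window

On a rectangle of pairs (least slice area, greatest slice area) either the base bound of an axis is
at least one, or the coupled bound of the axis reaches its third of the three-axis sum.
Numbers are integers scaled by `10^7`.
-/

namespace Vale.Agent.P232.GapSlab

/-- A decision tree over rectangles in `(f, a)`. -/
inductive STree : Type
  | base (H C : ℤ) (ns : List (ℤ × ℤ)) : STree
  | coup (H C : ℤ) (ns : List (ℤ × ℤ)) : STree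
  | cutF (m : ℤ) (l r : STree) : STree
  | cutA (m : ℤ) (l r : STree) : STree
  | empty : STree
  | corner : STree

/-- The least scaled volume of the window. -/
def vLo : ℤ := 3230000

/-- The greatest scaled volume of the window. -/
def vHi : ℤ := 3600000

/-- The end inequality `H v + C + S ≥ 1` at the scaled volume `v`. -/
def baseEnd (H C S v : ℤ) : Bool := decide (2 * scale ^ 2 ≤ 2 * H * v + 2 * C * scale + S)

/-- The end inequality `124/25 (H v + C + 4/5 S) ≥ 14/3` at the scaled volume `v`. -/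
def coupEnd (H C S v : ℤ) : Bool :=
  decide (3500 * scale ^ 2 ≤ 372 * (5 * (2 * H * v + 2 * C * scale) + 4 * S))

/-- The nodes of a leaf form a calibration. -/
def leafOk (H C : ℤ) (ns : List (ℤ × ℤ)) (f0 f1 a0 a1 : ℤ) : Bool :=
  decide (0 ≤ f0 ∧ f0 < f1 ∧ a0 < a1 ∧ a1 ≤ scale ∧ f0 < a1) && spanOk f1 a0 ns &&
    chainOk H C ((f0, 0) :: (ns ++ [(a1, 0)]))

/-- The whole check. -/
def STree.check : STree → ℤ → ℤ → ℤ → ℤ → Bool
  | .base H C ns, f0, f1, a0, a1 =>
      leafOk H C ns f0 f1 a0 a1 && baseEnd H C (trap2 ns) (max vLo f0) &&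
        baseEnd H C (trap2 ns) (min vHi a1)
  | .coup H C ns, f0, f1, a0, a1 =>
      leafOk H C ns f0 f1 a0 a1 && coupEnd H C (trap2 ns) (max vLo f0) &&
        coupEnd H C (trap2 ns) (min vHi a1)
  | .cutF m l r, f0, f1, a0, a1 => l.check f0 m a0 a1 && r.check m f1 a0 a1
  | .cutA m l r, f0, f1, a0, a1 => l.check f0 f1 a0 m && r.check f0 f1 m a1
  | .empty, f0, _, _, a1 => decide (a1 < f0 ∨ min vHi a1 < max vLo f0)
  | .corner, f0, f1, a0, a1 => decide (0 ≤ f0 ∧ f1 ≤ 200 ∧ 9999800 ≤ a0 ∧ a1 ≤ scale)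

end Vale.Agent.P232.GapSlab
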