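import Vale.Agent.P232.GapSlab.Sound
import Vale.Agent.P232.GapSlab.Data
import Vale.Agent.P232.Window

/-!
# P232: the middle window above the tube transition

For volumes between `0.323` and `0.36` every axis has its base bound or its coupled bound, and so
half the perimeter is at least one.
-/

namespace Vale.Agent.P232.GapSlab

noncomputable section

open Real

lemma bandC_zero : bandC 0 = 1 := by simp [bandC]

lemma kfun_zero : kfun 0 0 = gfun := by
  funext x
  simp only [kfun, gfun, bandC_zero, zero_mul, add_zero]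
  rw [← min_assoc, min_assoc (√(π * x)) 1 1, min_self]

/-- One axis. -/
lemma axis_alt {L v P : ℝ} {f a S : Fin 3 → ℝ} {i : Fin 3} (h1 : 323 / 1000 ≤ v) (h2 : v ≤ 9 / 25)
    (D : AxData L v P f a S i) : 1 ≤ P ∨ 14 / 3 ≤ 5 * P - S i := by
  have hz : (0 : ℝ) ∈ Set.Icc (0 : ℝ) 1 := ⟨le_rfl, zero_le_one⟩
  have hq := D.coup 0 0 hz hz 5 (124 / 25) (4 / 5) (by norm_num) (by norm_num) (by norm_num)
    fun s hs => by nlinarith [sq_nonneg (s - 57 / 100), hs.1, hs.2]
  rw [kfun_zero] at hq
  have h := tree_sound D.f_le D.le_a h1 h2 D.base hq slabWindowTree _ _ _ _ slabWindowTree_ok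
    (by norm_num [sc]; exact D.f_nonneg) (by norm_num [sc]; linarith [D.f_le])
    (by norm_num [sc]; linarith [D.le_a]) (by norm_num [sc]; exact D.a_le)
  rcases h with h | h
  · exact Or.inl h
  · exact Or.inr (h.trans_eq (by ring))

/-- The slab part of the middle window. -/
theorem slab_window {L v P η : ℝ} {f a S : Fin 3 → ℝ} (hv : v ∈ Set.Icc (323 / 1000 : ℝ) (9 / 25))
    (hη : 0 ≤ η) (D : Data L v P η f a S) : 1 ≤ P + η := by
  by_cases hb : 1 ≤ P
  · linarith
  have h : ∀ i, 14 / 3 ≤ 5 * P - S i := fun i =>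
    (axis_alt hv.1 hv.2 (D.ax i)).resolve_left hb
  have hs := D.sum
  rw [Fin.sum_univ_three] at hs
  linarith [h 0, h 1, h 2]

/-- The core statement there, with no exceptional data. -/
theorem slab_core (L : ℝ) (Exc : ℝ → (Fin 3 → ℝ) → (Fin 3 → ℝ) → Prop) :
    WindowCore L (323 / 1000) (9 / 25) Exc :=
  fun _ _ _ _ _ _ hv hη D => Or.inl ((min_le_right _ _).trans (slab_window hv hη D))

end

end Vale.Agent.P232.GapSlab
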