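import Vale.Agent.P232.GapSlab.Main
import Vale.Agent.P232.WindowProfile

/-! # P232: the profile outside the tube part of the middle window -/

namespace Vale.Agent.P232

noncomputable section

open Real

/-- The profile equals `J` for `min V (1 - V)` at most `0.263` or above `0.323`. -/
theorem profile_eq_slab {V : ℝ} (h0 : 0 ≤ V) (h1 : V ≤ 1)
    (hV : min V (1 - V) ≤ 263 / 1000 ∨ 323 / 1000 < min V (1 - V)) :
    profile V = ENNReal.ofReal (J V) := by
  have hd : DensWindow (323 / 1000) (9 / 25) := by
    refine densWindow_of_core (L := 1) zero_le_one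
      (GapSlab.slab_core 1 fun _ _ _ => False) fun δ hδ => ⟨0, le_rfl, fun w _ f a _ h => h.elim⟩
  refine profile_eq_window hd (by norm_num) h0 h1 ?_
  rcases hV with c | c
  · exact Or.inl c
  rcases le_or_gt (9 / 25) (min V (1 - V)) with d | d
  · exact Or.inr (Or.inl d)
  · exact Or.inr (Or.inr ⟨c, d⟩)

end

end Vale.Agent.P232
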