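import Vale.Agent.P232.GapSlab.Check
import Vale.Agent.P232.CertSound
import Vale.Agent.P232.Corner
import Vale.Agent.P232.Couple

/-!
# P232: what a checked slab tree proves
-/

namespace Vale.Agent.P232.GapSlab

noncomputable section

open Real MeasureTheory

/-- A leaf provides a calibration with a large integral. -/
lemma leaf_exists {H C f0 f1 a0 a1 : ℤ} {ns : List (ℤ × ℤ)}
    (h : leafOk H C ns f0 f1 a0 a1 = true) {f a : ℝ} (hf : sc f0 ≤ f) (hf' : f ≤ sc f1)
    (ha : sc a0 ≤ a) (ha' : a ≤ sc a1) (hfa : f ≤ a) :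
    ∃ β : ℝ → ℝ, ContinuousOn β (Set.Icc f a) ∧
      (∀ x ∈ Set.Icc f a, 0 ≤ β x ∧
        (sc H * x + sc C) ^ 2 + gfun x ^ 2 * β x ^ 2 ≤ gfun x ^ 2 ∧ β x ≤ 1) ∧
      (trap2 ns : ℝ) / (2 * 10000000 ^ 2) ≤ ∫ x in f..a, β x := by
  simp only [leafOk, Bool.and_eq_true, decide_eq_true_eq] at h
  obtain ⟨⟨hd, hs⟩, hc⟩ := h
  set L := (f0, (0 : ℤ)) :: (ns ++ [(a1, 0)]) with hL
  have hlast : lastX ((f0, 0) : ℤ × ℤ) (ns ++ [(a1, 0)]) = a1 := lastX_append _ _ _
  have hadm : ∀ x ∈ Set.Icc f a, Adm (sc H) (sc C) x (pl L x) := fun x hx =>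
    adm_pl _ _ hc hd.1 (by rw [hlast]; exact hd.2.2.2.1) x (hf.trans hx.1)
      (by rw [hlast]; exact hx.2.trans ha')
  have hcont := continuous_pl L hc
  have hf00 : 0 ≤ f := le_trans (div_nonneg (Int.cast_nonneg hd.1) (by norm_num)) hf
  have ha1 : a ≤ 1 := ha'.trans (by
    rw [sc, div_le_one (by norm_num)]; exact_mod_cast hd.2.2.2.1)
  refine ⟨pl L, hcont.continuousOn, fun x hx =>
    ⟨(hadm x hx).1, (hadm x hx).gfun (hf00.trans hx.1) (hx.2.trans ha1), (hadm x hx).2.1⟩, ?_⟩
  have hpos : 0 ≤ ∫ x in f..a, pl L x :=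
    intervalIntegral.integral_nonneg hfa fun x hx => (hadm x hx).1
  cases ns with
  | nil => simpa [trap2] using hpos
  | cons p r =>
    simp only [spanOk, decide_eq_true_eq] at hs
    rw [hL, List.cons_append] at hc
    simp only [chainOk, Bool.and_eq_true, decide_eq_true_eq] at hc
    have hc' : chainOk H C (p :: r) = true :=
      chainOk_left (p :: r) (a1, 0) (by rw [List.cons_append]; exact hc.2)
    have hle : f1 ≤ a0 := by rw [← hs.1, ← hs.2]; exact lastX_ge p r hc'
    have e : (∫ x in sc f1..sc a0, pl L x) = (trap2 (p :: r) : ℝ) / (2 * 10000000 ^ 2) := by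
      rw [← integral_pl p r hc', hs.1, hs.2]
      refine intervalIntegral.integral_congr fun x hx => ?_
      rw [Set.uIcc_of_le (sc_le hle)] at hx
      rw [hL, List.cons_append, pl_cons hc.2 hc.1.2 (by rw [hs.1]; exact hx.1)]
      exact pl_append p r (a1, 0) hc.2 x (by rw [hs.1]; exact hx.1) (by rw [hs.2]; exact hx.2)
    rw [← e]
    refine intervalIntegral.integral_mono_interval hf' (sc_le hle) ha ?_
      (hcont.intervalIntegrable _ _)
    filter_upwards [ae_restrict_mem measurableSet_Ioc] with x hx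
    exact (hadm x ⟨hx.1.le, hx.2⟩).1

/-- A linear inequality holds between two volumes at which it holds. -/
lemma affine_ge {H K t lo hi v : ℝ} (h0 : t ≤ H * lo + K) (h1 : t ≤ H * hi + K) (hv : lo ≤ v)
    (hv' : v ≤ hi) : t ≤ H * v + K := by
  rcases le_total 0 H with c | c
  · nlinarith [mul_le_mul_of_nonneg_left hv c]
  · nlinarith [mul_le_mul_of_nonpos_left hv' c]

lemma integral_div_le₂ {c b : ℝ} (hc : 0 ≤ c) (hc' : c ≤ 1 / 50000) (hcb : c ≤ b) (hb : b ≤ 1) :
    c + (∫ x in c..b, c / x) ≤ 8 / 25 * √c := by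
  rcases hc.eq_or_lt with rfl | hc0
  · simp
  have hb0 : 0 < b := hc0.trans_le hcb
  have e : (∫ x in c..b, c / x) = c * Real.log (b / c) := by
    simp_rw [div_eq_mul_inv c]
    rw [intervalIntegral.integral_const_mul, integral_inv_of_pos hc0 hb0]
  rw [e]
  set t := √(√c) with ht
  have ht0 : 0 < t := by positivity
  have ht2 : t ^ 2 = √c := Real.sq_sqrt (Real.sqrt_nonneg _)
  have ht4 : t ^ 4 = c := by
    rw [show t ^ 4 = (t ^ 2) ^ 2 by ring, ht2, Real.sq_sqrt hc]
  have ht1 : t ≤ 753 / 10000 := by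
    rw [← abs_of_pos ht0]
    refine abs_le_of_sq_le_sq ?_ (by norm_num)
    refine (sq_le_sq₀ (sq_nonneg _) (by norm_num)).1 ?_
    rw [← pow_mul, ht4]
    norm_num
    linarith
  have h1 : Real.log (b / c) ≤ 4 * t⁻¹ := by
    refine (log_le_root (div_pos hb0 hc0)).trans (mul_le_mul_of_nonneg_left ?_ (by norm_num))
    rw [ht, ← Real.sqrt_inv, ← Real.sqrt_inv]
    refine Real.sqrt_le_sqrt (Real.sqrt_le_sqrt ?_)
    rw [div_eq_mul_inv]
    exact mul_le_of_le_one_left (by positivity) hb
  have h2 := mul_le_mul_of_nonneg_left h1 hc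
  rw [← ht2]
  have h3 : c * (4 * t⁻¹) = 4 * t ^ 3 := by rw [← ht4]; field_simp
  rw [h3] at h2
  rw [← ht4] at h2 ⊢
  nlinarith [mul_le_mul_of_nonneg_left ht1 (sq_nonneg t),
    mul_le_mul_of_nonneg_left (mul_self_le_mul_self ht0.le ht1) (sq_nonneg t)]

/-- The calibration near the slab, on the whole window. -/
lemma corner_bound₂ {v f a P : ℝ} (hf : 0 ≤ f) (hf' : f ≤ 1 / 50000) (ha : 1 - 1 / 50000 ≤ a)
    (ha' : a ≤ 1) (hv : 323 / 1000 ≤ v) (hv' : v ≤ 9 / 25) (hP : Low gfun v f a P) :
    1 ≤ P := by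
  set c := 1 - a with hcdef
  have hc : 0 ≤ c := by linarith
  have hc' : c ≤ 1 / 50000 := by linarith
  have hfa : f ≤ a := by linarith
  have hcon1 : ContinuousOn (fun x : ℝ => f / x) (Set.Icc f a) := by
    rcases hf.eq_or_lt with rfl | h
    · simp [continuousOn_const]
    · exact continuousOn_const.div continuousOn_id fun x hx => (h.trans_le hx.1).ne'
  have hcon2 : ContinuousOn (fun x : ℝ => c / (1 - x)) (Set.Icc f a) := by
    rcases hc.eq_or_lt with h | h
    · simp [← h, continuousOn_const]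
    · exact continuousOn_const.div (continuousOn_const.sub continuousOn_id) fun x hx => by
        rw [Set.mem_Icc] at hx
        linarith
  have hcon : ContinuousOn (fun x : ℝ => max 0 (1 - (f / x + c / (1 - x)))) (Set.Icc f a) :=
    continuousOn_const.sup (continuousOn_const.sub (hcon1.add hcon2))
  have main := hP (√c - √f) √f _ hcon fun x hx =>
    corner_pt hf hc hx.1 (by linarith [hx.2])
  have hi : a - f - ((∫ x in f..a, f / x) + ∫ x in f..a, c / (1 - x)) ≤
      ∫ x in f..a, max 0 (1 - (f / x + c / (1 - x))) := by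
    have i1 := hcon1.intervalIntegrable_of_Icc hfa (μ := volume)
    have i2 := hcon2.intervalIntegrable_of_Icc hfa (μ := volume)
    rw [← intervalIntegral.integral_add i1 i2]
    calc a - f - (∫ x in f..a, (f / x + c / (1 - x)))
        = ∫ x in f..a, (1 - (f / x + c / (1 - x))) := by
          rw [intervalIntegral.integral_sub intervalIntegrable_const (i1.add i2)]
          simp
      _ ≤ _ := intervalIntegral.integral_mono_on hfa
          (intervalIntegrable_const.sub (i1.add i2)) (hcon.intervalIntegrable_of_Icc hfa)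
          fun x _ => le_max_right _ _
  have e2 : (∫ x in f..a, c / (1 - x)) = ∫ x in c..(1 - f), c / x :=
    intervalIntegral.integral_comp_sub_left (fun x => c / x) 1
  have l1 := integral_div_le₂ hf hf' hfa ha'
  have l2 := integral_div_le₂ hc hc' (show c ≤ 1 - f by linarith) (by linarith)
  rw [e2] at hi
  nlinarith [mul_nonneg (Real.sqrt_nonneg f) (show 0 ≤ (1 - v) - 8 / 25 by linarith),
    mul_nonneg (Real.sqrt_nonneg c) (show 0 ≤ v - 8 / 25 by linarith)]

/-- What a checked tree proves. -/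
lemma tree_sound {v f a P Q : ℝ} (hfv : f ≤ v) (hva : v ≤ a) (h1 : 323 / 1000 ≤ v)
    (h2 : v ≤ 9 / 25) (hP : Low gfun v f a P) (hQ : LowR gfun (4 / 5) v f a Q) :
    ∀ (T : STree) (f0 f1 a0 a1 : ℤ), T.check f0 f1 a0 a1 = true →
      sc f0 ≤ f → f ≤ sc f1 → sc a0 ≤ a → a ≤ sc a1 → 1 ≤ P ∨ 14 / 3 ≤ 124 / 25 * Q
  | .base H C ns, f0, f1, a0, a1, h, hf, hf', ha, ha' => by
    simp only [STree.check, Bool.and_eq_true] at h
    obtain ⟨⟨hl, e0⟩, e1⟩ := h
    replace e0 := of_decide_eq_true e0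
    replace e1 := of_decide_eq_true e1
    simp only [scale] at e0 e1
    obtain ⟨β, hc, hb, hI⟩ := leaf_exists hl hf hf' ha ha' (hfv.trans hva)
    refine Or.inl (le_trans ?_ (hP _ _ β hc hb))
    have key : ∀ x : ℤ, 2 * 10000000 ^ 2 ≤ 2 * H * x + 2 * C * 10000000 + trap2 ns →
        1 - (trap2 ns : ℝ) / (2 * 10000000 ^ 2) ≤ sc H * sc x + sc C := by
      intro x hx
      have hx' : (2 * 10000000 ^ 2 : ℝ) ≤ 2 * H * x + 2 * C * 10000000 + trap2 ns := by
        exact_mod_cast hx
      simp only [sc]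
      linarith
    have hlo : sc (max vLo f0) ≤ v := by
      rcases max_choice vLo f0 with e | e <;> rw [e]
      · norm_num [sc, vLo]; linarith
      · exact hf.trans hfv
    have hhi : v ≤ sc (min vHi a1) := by
      rcases min_choice vHi a1 with e | e <;> rw [e]
      · norm_num [sc, vHi]; linarith
      · exact hva.trans ha'
    linarith [affine_ge (key _ e0) (key _ e1) hlo hhi]
  | .coup H C ns, f0, f1, a0, a1, h, hf, hf', ha, ha' => by
    simp only [STree.check, Bool.and_eq_true] at h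
    obtain ⟨⟨hl, e0⟩, e1⟩ := h
    replace e0 := of_decide_eq_true e0
    replace e1 := of_decide_eq_true e1
    simp only [scale] at e0 e1
    obtain ⟨β, hc, hb, hI⟩ := leaf_exists hl hf hf' ha ha' (hfv.trans hva)
    refine Or.inr (le_trans ?_ (mul_le_mul_of_nonneg_left (hQ _ _ β hc hb) (by norm_num)))
    have key : ∀ x : ℤ,
        3500 * 10000000 ^ 2 ≤ 372 * (5 * (2 * H * x + 2 * C * 10000000) + 4 * trap2 ns) →
        14 / 3 * (25 / 124) - 4 / 5 * ((trap2 ns : ℝ) / (2 * 10000000 ^ 2)) ≤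
          sc H * sc x + sc C := by
      intro x hx
      have hx' : (3500 * 10000000 ^ 2 : ℝ) ≤
          372 * (5 * (2 * H * x + 2 * C * 10000000) + 4 * trap2 ns) := by exact_mod_cast hx
      simp only [sc]
      linarith
    have hlo : sc (max vLo f0) ≤ v := by
      rcases max_choice vLo f0 with e | e <;> rw [e]
      · norm_num [sc, vLo]; linarith
      · exact hf.trans hfv
    have hhi : v ≤ sc (min vHi a1) := by
      rcases min_choice vHi a1 with e | e <;> rw [e]
      · norm_num [sc, vHi]; linarith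
      · exact hva.trans ha'
    linarith [affine_ge (key _ e0) (key _ e1) hlo hhi]
  | .cutF m l r, f0, f1, a0, a1, h, hf, hf', ha, ha' => by
    simp only [STree.check, Bool.and_eq_true] at h
    rcases le_total f (sc m) with c | c
    · exact tree_sound hfv hva h1 h2 hP hQ l _ _ _ _ h.1 hf c ha ha'
    · exact tree_sound hfv hva h1 h2 hP hQ r _ _ _ _ h.2 c hf' ha ha'
  | .cutA m l r, f0, f1, a0, a1, h, hf, hf', ha, ha' => by
    simp only [STree.check, Bool.and_eq_true] at h
    rcases le_total a (sc m) with c | c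
    · exact tree_sound hfv hva h1 h2 hP hQ l _ _ _ _ h.1 hf hf' ha c
    · exact tree_sound hfv hva h1 h2 hP hQ r _ _ _ _ h.2 hf hf' c ha'
  | .empty, f0, f1, a0, a1, h, hf, _, _, ha' => by
    replace h := of_decide_eq_true h
    exfalso
    rcases h with h | h
    · linarith [sc_lt h]
    · have hl : sc (max vLo f0) ≤ v := by
        rcases max_choice vLo f0 with e | e <;> rw [e]
        · norm_num [sc, vLo]; linarith
        · exact hf.trans hfv
      have hh : v ≤ sc (min vHi a1) := by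
        rcases min_choice vHi a1 with e | e <;> rw [e]
        · norm_num [sc, vHi]; linarith
        · exact hva.trans ha'
      linarith [sc_lt h]
  | .corner, f0, f1, a0, a1, h, hf, hf', ha, ha' => by
    replace h := of_decide_eq_true h
    simp only [scale] at h
    obtain ⟨h0, h3, h4, h5⟩ := h
    have r0 : (0 : ℝ) ≤ sc f0 := div_nonneg (Int.cast_nonneg h0) (by norm_num)
    have r3 : sc f1 ≤ 1 / 50000 := by
      have : (f1 : ℝ) ≤ 200 := by exact_mod_cast h3
      rw [sc]; linarith
    have r4 : 1 - 1 / 50000 ≤ sc a0 := by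
      have : (9999800 : ℝ) ≤ a0 := by exact_mod_cast h4
      rw [sc]; linarith
    have r5 : sc a1 ≤ 1 := by
      have : (a1 : ℝ) ≤ 10000000 := by exact_mod_cast h5
      rw [sc]; linarith
    exact Or.inl
      (corner_bound₂ (r0.trans hf) (hf'.trans r3) (r4.trans ha) (ha'.trans r5) h1 h2 hP)

end

end Vale.Agent.P232.GapSlab
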