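import Vale.Agent.P232.GapSlab.Main
import Vale.Agent.P232.CornerWindow
import Vale.Agent.P232.Rigid.StrictCore

/-!
# P232: the strict statement on the slab part of the middle window

The tree of `slab_window` passes with margin `10⁻⁸` at every leaf outside the slab corner, and the
corner has the slack of `corner_window`.
-/

namespace Vale.Agent.P232.GapSlab

noncomputable section

open Real MeasureTheory

/-- The check with margins. -/
def checkS : STree → ℤ → ℤ → ℤ → ℤ → Bool
  | .base H C ns, f0, f1, a0, a1 =>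
      leafOk H C ns f0 f1 a0 a1 &&
        decide (2 * scale ^ 2 + 2000000 ≤ 2 * H * max vLo f0 + 2 * C * scale + trap2 ns) &&
        decide (2 * scale ^ 2 + 2000000 ≤ 2 * H * min vHi a1 + 2 * C * scale + trap2 ns)
  | .coup H C ns, f0, f1, a0, a1 =>
      leafOk H C ns f0 f1 a0 a1 &&
        decide (3500 * scale ^ 2 + 3500000000 ≤
          372 * (5 * (2 * H * max vLo f0 + 2 * C * scale) + 4 * trap2 ns)) &&
        decide (3500 * scale ^ 2 + 3500000000 ≤
          372 * (5 * (2 * H * min vHi a1 + 2 * C * scale) + 4 * trap2 ns))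
  | .cutF m l r, f0, f1, a0, a1 => checkS l f0 m a0 a1 && checkS r m f1 a0 a1
  | .cutA m l r, f0, f1, a0, a1 => checkS l f0 f1 a0 m && checkS r f0 f1 m a1
  | .empty, f0, _, _, a1 => decide (a1 < f0 ∨ min vHi a1 < max vLo f0)
  | .corner, f0, f1, a0, a1 => decide (0 ≤ f0 ∧ f1 ≤ 200 ∧ 9999800 ≤ a0 ∧ a1 ≤ scale)

lemma slabWindowTree_strict : checkS slabWindowTree 0 3600000 3230000 10000000 = true := by
  decide +kernel

/-- What a checked tree proves. -/
lemma tree_sound_strict {v f a P Q : ℝ} (hfv : f ≤ v) (hva : v ≤ a) (h1 : 323 / 1000 ≤ v)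
    (h2 : v ≤ 9 / 25) (hP : Low gfun v f a P) (hQ : LowR gfun (4 / 5) v f a Q) :
    ∀ (T : STree) (f0 f1 a0 a1 : ℤ), checkS T f0 f1 a0 a1 = true →
      sc f0 ≤ f → f ≤ sc f1 → sc a0 ≤ a → a ≤ sc a1 → 1 + 1 / 10 ^ 8 ≤ P ∨ 14 / 3 * (1 + 1 / 10 ^ 8) ≤ 124 / 25 * Q ∨
          (f ≤ 1 / 2000 ∧ 1 - 1 / 2000 ≤ a)
  | .base H C ns, f0, f1, a0, a1, h, hf, hf', ha, ha' => by
    simp only [checkS, Bool.and_eq_true] at h
    obtain ⟨⟨hl, e0⟩, e1⟩ := h
    replace e0 := of_decide_eq_true e0
    replace e1 := of_decide_eq_true e1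
    simp only [scale] at e0 e1
    obtain ⟨β, hc, hb, hI⟩ := leaf_exists hl hf hf' ha ha' (hfv.trans hva)
    refine Or.inl (le_trans ?_ (hP _ _ β hc hb))
    have key : ∀ x : ℤ, 2 * 10000000 ^ 2 + 2000000 ≤ 2 * H * x + 2 * C * 10000000 + trap2 ns →
        1 + 1 / 10 ^ 8 - (trap2 ns : ℝ) / (2 * 10000000 ^ 2) ≤ sc H * sc x + sc C := by
      intro x hx
      have hx' : (2 * 10000000 ^ 2 + 2000000 : ℝ) ≤ 2 * H * x + 2 * C * 10000000 + trap2 ns := by
        exact_mod_cast hx
      simp only [sc]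
      linarith
    have hlo : sc (max vLo f0) ≤ v := by
      rcases max_choice vLo f0 with e | e <;> rw [e]
      · norm_num [sc, vLo]; linarith
      · exact hf.trans hfv
    have hhi : v ≤ sc (min vHi a1) := by
      rcases min_choice vHi a1 with e | e <;> rw [e]
      · norm_num [sc, vHi]; linarith
      · exact hva.trans ha'
    linarith [affine_ge (key _ e0) (key _ e1) hlo hhi]
  | .coup H C ns, f0, f1, a0, a1, h, hf, hf', ha, ha' => by
    simp only [checkS, Bool.and_eq_true] at h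
    obtain ⟨⟨hl, e0⟩, e1⟩ := h
    replace e0 := of_decide_eq_true e0
    replace e1 := of_decide_eq_true e1
    simp only [scale] at e0 e1
    obtain ⟨β, hc, hb, hI⟩ := leaf_exists hl hf hf' ha ha' (hfv.trans hva)
    refine Or.inr (Or.inl (le_trans ?_ (mul_le_mul_of_nonneg_left (hQ _ _ β hc hb) (by norm_num))))
    have key : ∀ x : ℤ,
        3500 * 10000000 ^ 2 + 3500000000 ≤ 372 * (5 * (2 * H * x + 2 * C * 10000000) + 4 * trap2 ns) →
        14 / 3 * (1 + 1 / 10 ^ 8) * (25 / 124) - 4 / 5 * ((trap2 ns : ℝ) / (2 * 10000000 ^ 2)) ≤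
          sc H * sc x + sc C := by
      intro x hx
      have hx' : (3500 * 10000000 ^ 2 + 3500000000 : ℝ) ≤
          372 * (5 * (2 * H * x + 2 * C * 10000000) + 4 * trap2 ns) := by exact_mod_cast hx
      simp only [sc]
      linarith
    have hlo : sc (max vLo f0) ≤ v := by
      rcases max_choice vLo f0 with e | e <;> rw [e]
      · norm_num [sc, vLo]; linarith
      · exact hf.trans hfv
    have hhi : v ≤ sc (min vHi a1) := by
      rcases min_choice vHi a1 with e | e <;> rw [e]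
      · norm_num [sc, vHi]; linarith
      · exact hva.trans ha'
    linarith [affine_ge (key _ e0) (key _ e1) hlo hhi]
  | .cutF m l r, f0, f1, a0, a1, h, hf, hf', ha, ha' => by
    simp only [checkS, Bool.and_eq_true] at h
    rcases le_total f (sc m) with c | c
    · exact tree_sound_strict hfv hva h1 h2 hP hQ l _ _ _ _ h.1 hf c ha ha'
    · exact tree_sound_strict hfv hva h1 h2 hP hQ r _ _ _ _ h.2 c hf' ha ha'
  | .cutA m l r, f0, f1, a0, a1, h, hf, hf', ha, ha' => by
    simp only [checkS, Bool.and_eq_true] at h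
    rcases le_total a (sc m) with c | c
    · exact tree_sound_strict hfv hva h1 h2 hP hQ l _ _ _ _ h.1 hf hf' ha c
    · exact tree_sound_strict hfv hva h1 h2 hP hQ r _ _ _ _ h.2 hf hf' c ha'
  | .empty, f0, f1, a0, a1, h, hf, _, _, ha' => by
    replace h := of_decide_eq_true h
    exfalso
    rcases h with h | h
    · linarith [sc_lt h]
    · have hl : sc (max vLo f0) ≤ v := by
        rcases max_choice vLo f0 with e | e <;> rw [e]
        · norm_num [sc, vLo]; linarith
        · exact hf.trans hfv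
      have hh : v ≤ sc (min vHi a1) := by
        rcases min_choice vHi a1 with e | e <;> rw [e]
        · norm_num [sc, vHi]; linarith
        · exact hva.trans ha'
      linarith [sc_lt h]
  | .corner, f0, f1, a0, a1, h, hf, hf', ha, ha' => by
    replace h := of_decide_eq_true h
    simp only [scale] at h
    obtain ⟨h0, h3, h4, h5⟩ := h
    have r3 : sc f1 ≤ 1 / 2000 := by
      have : (f1 : ℝ) ≤ 200 := by exact_mod_cast h3
      rw [sc]; linarith
    have r4 : 1 - 1 / 2000 ≤ sc a0 := by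
      have : (9999800 : ℝ) ≤ a0 := by exact_mod_cast h4
      rw [sc]; linarith
    exact Or.inr (Or.inr ⟨hf'.trans r3, r4.trans ha⟩)

/-- One axis. -/
lemma axis_strict {L v P : ℝ} {f a S : Fin 3 → ℝ} {i : Fin 3} (h1 : 323 / 1000 ≤ v)
    (h2 : v ≤ 9 / 25) (D : AxData L v P f a S i) :
    1 + 1 / 10 ^ 8 ≤ P ∨ 14 / 3 * (1 + 1 / 10 ^ 8) ≤ 5 * P - S i ∨
      (f i ≤ 1 / 2000 ∧ 1 - 1 / 2000 ≤ a i) := by
  have hz : (0 : ℝ) ∈ Set.Icc (0 : ℝ) 1 := ⟨le_rfl, zero_le_one⟩
  have hq := D.coup 0 0 hz hz 5 (124 / 25) (4 / 5) (by norm_num) (by norm_num) (by norm_num)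
    fun s hs => by nlinarith [sq_nonneg (s - 57 / 100), hs.1, hs.2]
  rw [kfun_zero] at hq
  have h := tree_sound_strict D.f_le D.le_a h1 h2 D.base hq slabWindowTree _ _ _ _
    slabWindowTree_strict (by norm_num [sc]; exact D.f_nonneg) (by norm_num [sc]; linarith [D.f_le])
    (by norm_num [sc]; linarith [D.le_a]) (by norm_num [sc]; exact D.a_le)
  rcases h with h | h | h
  · exact Or.inl h
  · exact Or.inr (Or.inl (h.trans_eq (by ring)))
  · exact Or.inr (Or.inr h)

/-- The strict statement on `[0.323, 0.36]`. -/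
theorem slab_strict (L : ℝ) : StrictWindow L (323 / 1000) (9 / 25) := by
  intro v P η f a S hv hη D
  have hg : goalF v ≤ 1 := min_le_right _ _
  by_cases hb : 1 + 1 / 10 ^ 8 ≤ P
  · exact Or.inl (by linarith)
  by_cases hc : ∃ i, f i ≤ 1 / 2000 ∧ 1 - 1 / 2000 ≤ a i
  · obtain ⟨i, hf, ha⟩ := hc
    have A := D.ax i
    have h := corner_window A.f_nonneg hf ha A.a_le (by linarith [hv.1]) (by linarith [hv.2]) A.base
    have s1 : f i ≤ √(f i) :=
      Real.le_sqrt_of_sq_le (by nlinarith [A.f_nonneg])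
    have s2 : 1 - a i ≤ √(1 - a i) :=
      Real.le_sqrt_of_sq_le (by nlinarith [A.a_le])
    refine Or.inr (Or.inr ⟨i, by linarith, by linarith, A.a_le, ?_⟩)
    linarith [Real.sqrt_nonneg (f i), Real.sqrt_nonneg (1 - a i)]
  push Not at hc
  have h : ∀ i, 14 / 3 * (1 + 1 / 10 ^ 8) ≤ 5 * P - S i := fun i =>
    ((axis_strict hv.1 hv.2 (D.ax i)).resolve_left hb).resolve_right fun h =>
      (hc i h.1).not_ge h.2
  have hs := D.sum
  rw [Fin.sum_univ_three] at hs
  exact Or.inl (by linarith [h 0, h 1, h 2])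

end

end Vale.Agent.P232.GapSlab
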